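import Vale.Agent.P325.H111.K2.Stmts

/-!
# Two slots suffice for an anticoncentration of order `1 / L`
-/

namespace Vale.Agent.P325.K2

open Finset

namespace A2

/-- The integers `v` with `|s + a v| ≤ R`. -/
theorem mem_box {a s R v : ℤ} (ha : 0 < a) (h : |s + a * v| ≤ R) :
    v ∈ Icc (-((R + s) / a)) ((R - s) / a) := by
  rw [abs_le] at h
  rw [mem_Icc]
  constructor
  · have : -v ≤ (R + s) / a := by
      rw [Int.le_ediv_iff_mul_le ha]
      nlinarith [h.1]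
    omega
  · rw [Int.le_ediv_iff_mul_le ha]
    nlinarith [h.2]

theorem card_box {a s R : ℤ} (ha : 0 < a) (hR : 0 ≤ R) :
    (#(Icc (-((R + s) / a)) ((R - s) / a)) : ℝ) ≤ 2 * R / a + 1 := by
  rw [Int.card_Icc]
  have ha' : (0 : ℝ) < a := by exact_mod_cast ha
  have hR' : (0 : ℝ) ≤ R := by exact_mod_cast hR
  have h1 : ((R - s) / a : ℤ) * a ≤ R - s := Int.ediv_mul_le _ ha.ne'
  have h2 : ((R + s) / a : ℤ) * a ≤ R + s := Int.ediv_mul_le _ ha.ne'
  rcases le_total 0 ((R - s) / a + 1 - -((R + s) / a)) with h | h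
  · have h3 : (((((R - s) / a + 1 - -((R + s) / a)).toNat : ℕ) : ℤ) : ℝ) =
        (((R - s) / a + 1 - -((R + s) / a) : ℤ) : ℝ) := by
      rw [Int.toNat_of_nonneg h]
    have h4 : ((((R - s) / a + 1 - -((R + s) / a)).toNat : ℕ) : ℝ) =
        (((R - s) / a + 1 - -((R + s) / a) : ℤ) : ℝ) := by
      rw [← h3]; norm_cast
    rw [h4]
    have h5 : ((R - s) / a + 1 - -((R + s) / a)) * a ≤ 2 * R + a := by nlinarith
    have h6 : ((((R - s) / a + 1 - -((R + s) / a) : ℤ) : ℝ)) * a ≤ 2 * R + a := by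
      exact_mod_cast h5
    rw [← sub_nonneg] at h6 ⊢
    have h7 : 2 * (R : ℝ) / a + 1 - (((R - s) / a + 1 - -((R + s) / a) : ℤ) : ℝ) =
        (2 * R + a - (((R - s) / a + 1 - -((R + s) / a) : ℤ) : ℝ) * a) / a := by
      field_simp
    rw [h7]
    exact div_nonneg h6 ha'.le
  · rw [Int.toNat_of_nonpos h]
    have : 0 ≤ 2 * (R : ℝ) / a := by positivity
    push_cast
    linarith

/-- The anticoncentration of one weighted value. -/
theorem one_slot {C : ℝ} {L : ℕ} (hL : 0 < L)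
    (hC : ∀ v : ℤ, Pr (fun y : Fin (L * L) → Bool => xv L y = v) ≤ C / L) (hC0 : 0 < C)
    {a : ℕ} (ha : 0 < a) (haL : a ≤ L) (s : ℤ) :
    Pr (fun y : Fin (L * L) → Bool => |s + (a : ℤ) * xv L y| ≤ 2 * L) ≤ 5 * C / a := by
  classical
  have ha1 : (0 : ℤ) < a := by exact_mod_cast ha
  set S : Finset ℤ := Icc (-((2 * (L : ℤ) + s) / a)) ((2 * (L : ℤ) - s) / a) with hS
  have h1 : Pr (fun y : Fin (L * L) → Bool => |s + (a : ℤ) * xv L y| ≤ 2 * L) ≤
      Pr (fun y : Fin (L * L) → Bool => ∃ v : S, xv L y = v) := by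
    refine Pr_mono fun y hy => ?_
    exact ⟨⟨xv L y, mem_box ha1 hy⟩, rfl⟩
  have h2 := Pr_exists_le (κ := S) fun (v : S) (y : Fin (L * L) → Bool) => xv L y = v
  have h3 : ∑ v : S, Pr (fun y : Fin (L * L) → Bool => xv L y = v) ≤ ∑ _v : S, C / L :=
    sum_le_sum fun v _ => hC v
  have h4 : ∑ _v : S, C / L = (#S : ℝ) * (C / L) := by
    rw [sum_const, card_univ, Fintype.card_coe, nsmul_eq_mul]
  have h5 : (#S : ℝ) ≤ 2 * ((2 * (L : ℤ) : ℤ) : ℝ) / ((a : ℤ) : ℝ) + 1 :=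
    card_box (R := 2 * (L : ℤ)) ha1 (by positivity)
  have hLr : (0 : ℝ) < L := by exact_mod_cast hL
  have har : (0 : ℝ) < a := by exact_mod_cast ha
  have haLr : (a : ℝ) ≤ L := by exact_mod_cast haL
  have h6 : (#S : ℝ) ≤ 5 * L / a := by
    refine h5.trans ?_
    push_cast
    rw [div_add_one har.ne', div_le_div_iff_of_pos_right har]
    linarith
  have h7 : (#S : ℝ) * (C / L) ≤ 5 * L / a * (C / L) :=
    mul_le_mul_of_nonneg_right h6 (by positivity)
  have h8 : 5 * (L : ℝ) / a * (C / L) = 5 * C / a := by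
    field_simp
  linarith

theorem two_fixed {C : ℝ} {L : ℕ} (hL : 0 < L)
    (hC : ∀ v : ℤ, Pr (fun y : Fin (L * L) → Bool => xv L y = v) ≤ C / L) (hC0 : 0 < C)
    (s : ℤ) (a b : Fin L) :
    Pr (fun y : (Fin (L * L) → Bool) × (Fin (L * L) → Bool) =>
      |s + ((a : ℕ) : ℤ) * xv L y.1 + ((b : ℕ) : ℤ) * xv L y.2| ≤ 2 * L) ≤
      (if (a : ℕ) = 0 ∧ (b : ℕ) = 0 then 1 else 0) +
      (if b ≤ a then (if (a : ℕ) = 0 then 0 else 5 * C / (a : ℕ)) else 0) +
      (if a ≤ b then (if (b : ℕ) = 0 then 0 else 5 * C / (b : ℕ)) else 0) := by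
  classical
  have hnn : ∀ n : ℕ, (0 : ℝ) ≤ 5 * C / n := fun n => by positivity
  have hA : ∀ n : ℕ, (0 : ℝ) ≤ if n = 0 then 0 else 5 * C / (n : ℕ) := fun n => by
    split_ifs
    · exact le_rfl
    · exact hnn n
  have hA' : (0 : ℝ) ≤ if b ≤ a then (if (a : ℕ) = 0 then 0 else 5 * C / (a : ℕ)) else 0 := by
    split_ifs
    · exact le_rfl
    · exact hnn _
    · exact le_rfl
  have hB' : (0 : ℝ) ≤ if a ≤ b then (if (b : ℕ) = 0 then 0 else 5 * C / (b : ℕ)) else 0 := by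
    split_ifs
    · exact le_rfl
    · exact hnn _
    · exact le_rfl
  have h1' : (0 : ℝ) ≤ if (a : ℕ) = 0 ∧ (b : ℕ) = 0 then 1 else 0 := by
    split_ifs <;> norm_num
  by_cases h0 : (a : ℕ) = 0 ∧ (b : ℕ) = 0
  · rw [if_pos h0]
    have := Pr_le_one (fun y : (Fin (L * L) → Bool) × (Fin (L * L) → Bool) =>
      |s + ((a : ℕ) : ℤ) * xv L y.1 + ((b : ℕ) : ℤ) * xv L y.2| ≤ 2 * L)
    linarith
  rcases le_total b a with hab | hab
  · -- use `a`
    have ha : (a : ℕ) ≠ 0 := by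
      intro ha
      have : (b : ℕ) ≤ (a : ℕ) := hab
      exact h0 ⟨ha, by omega⟩
    have e1 : Pr (fun y : (Fin (L * L) → Bool) × (Fin (L * L) → Bool) =>
        |s + ((a : ℕ) : ℤ) * xv L y.1 + ((b : ℕ) : ℤ) * xv L y.2| ≤ 2 * L) =
        Pr (fun y : (Fin (L * L) → Bool) × (Fin (L * L) → Bool) =>
        |s + ((a : ℕ) : ℤ) * xv L y.2 + ((b : ℕ) : ℤ) * xv L y.1| ≤ 2 * L) :=
      (Pr_equiv (Equiv.prodComm (Fin (L * L) → Bool) (Fin (L * L) → Bool))
        (fun y : (Fin (L * L) → Bool) × (Fin (L * L) → Bool) =>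
        |s + ((a : ℕ) : ℤ) * xv L y.2 + ((b : ℕ) : ℤ) * xv L y.1| ≤ 2 * L))
    rw [e1, Pr_prod]
    have e2 : (Ex fun x : Fin (L * L) → Bool => Pr fun y : Fin (L * L) → Bool =>
        |s + ((a : ℕ) : ℤ) * xv L y + ((b : ℕ) : ℤ) * xv L x| ≤ 2 * L) ≤
        Ex fun _ : Fin (L * L) → Bool => 5 * C / (a : ℕ) := by
      refine Ex_mono fun x => ?_
      have := one_slot hL hC hC0 (Nat.pos_of_ne_zero ha) a.2.le
        (s + ((b : ℕ) : ℤ) * xv L x)
      refine le_trans (le_of_eq (Pr_congr fun y => ?_)) this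
      rw [add_right_comm]
    rw [Ex_const] at e2
    rw [if_pos hab, if_neg ha]
    refine e2.trans ?_
    linarith
  · have hb : (b : ℕ) ≠ 0 := by
      intro hb
      have : (a : ℕ) ≤ (b : ℕ) := hab
      exact h0 ⟨by omega, hb⟩
    rw [Pr_prod]
    have e2 : (Ex fun x : Fin (L * L) → Bool => Pr fun y : Fin (L * L) → Bool =>
        |s + ((a : ℕ) : ℤ) * xv L x + ((b : ℕ) : ℤ) * xv L y| ≤ 2 * L) ≤
        Ex fun _ : Fin (L * L) → Bool => 5 * C / (b : ℕ) := by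
      refine Ex_mono fun x => ?_
      exact one_slot hL hC hC0 (Nat.pos_of_ne_zero hb) b.2.le
        (s + ((a : ℕ) : ℤ) * xv L x)
    rw [Ex_const] at e2
    rw [if_pos hab, if_neg hb]
    refine e2.trans ?_
    linarith

theorem sum_le {C : ℝ} (hC0 : 0 < C) {L : ℕ} :
    ∑ a : Fin L, ∑ b : Fin L,
      (if b ≤ a then (if (a : ℕ) = 0 then (0 : ℝ) else 5 * C / (a : ℕ)) else 0) ≤
      10 * C * L := by
  classical
  have h1 : ∀ a : Fin L, ∑ b : Fin L,
      (if b ≤ a then (if (a : ℕ) = 0 then (0 : ℝ) else 5 * C / (a : ℕ)) else 0) ≤ 10 * C := by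
    intro a
    rw [← sum_filter, sum_const, nsmul_eq_mul]
    have h2 : #{b : Fin L | b ≤ a} = (a : ℕ) + 1 := by
      have : ({b : Fin L | b ≤ a} : Finset (Fin L)) = Iic a := by
        ext b; simp
      rw [this, Fin.card_Iic]
    rw [h2]
    split_ifs with h
    · rw [mul_zero]; positivity
    · have h3 : (1 : ℝ) ≤ (a : ℕ) := by
        exact_mod_cast Nat.one_le_iff_ne_zero.2 h
      have h4 : (0 : ℝ) < (a : ℕ) := by linarith
      rw [mul_div_assoc', div_le_iff₀ h4]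
      push_cast
      nlinarith
  calc _ ≤ ∑ _a : Fin L, 10 * C := sum_le_sum fun a _ => h1 a
    _ = 10 * C * L := by
      rw [sum_const, card_univ, Fintype.card_fin, nsmul_eq_mul, mul_comm]

end A2

open A2 in
/-- Package A2. -/
theorem twoThm (hB : BallThm) : TwoThm := by
  classical
  obtain ⟨C, hC0, hC⟩ := hB
  refine ⟨1 + 20 * C, by linarith, fun L hL hLe s => ?_⟩
  have hL0 : 0 < L := by omega
  have hC' := hC L hL hLe
  have hLr : (0 : ℝ) < L := by exact_mod_cast hL0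
  have hL1 : (1 : ℝ) ≤ L := by exact_mod_cast hL0
  rw [Pr_prod]
  have h1 := Ex_mono fun p : Fin L × Fin L => two_fixed hL0 hC' hC0 s p.1 p.2
  refine h1.trans ?_
  rw [Ex_add, Ex_add]
  have hcard : (Fintype.card (Fin L × Fin L) : ℝ) = L * L := by
    rw [Fintype.card_prod, Fintype.card_fin]; push_cast; ring
  have hA : (Ex fun p : Fin L × Fin L =>
      (if ((p.1 : Fin L) : ℕ) = 0 ∧ ((p.2 : Fin L) : ℕ) = 0 then (1 : ℝ) else 0)) ≤ 1 / L := by
    rw [Ex, hcard, Finset.sum_boole]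
    have h2 : #{p : Fin L × Fin L | ((p.1 : Fin L) : ℕ) = 0 ∧ ((p.2 : Fin L) : ℕ) = 0} ≤ 1 := by
      rw [card_le_one]
      intro x hx y hy
      rw [mem_filter] at hx hy
      refine Prod.ext (Fin.ext ?_) (Fin.ext ?_)
      · rw [hx.2.1, hy.2.1]
      · rw [hx.2.2, hy.2.2]
    have h3 : (#{p : Fin L × Fin L | ((p.1 : Fin L) : ℕ) = 0 ∧ ((p.2 : Fin L) : ℕ) = 0} : ℝ) ≤ 1 := by
      exact_mod_cast h2
    calc _ ≤ (1 : ℝ) / (L * L) := div_le_div_of_nonneg_right h3 (by positivity)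
      _ ≤ 1 / L := by
        apply one_div_le_one_div_of_le hLr
        nlinarith
  have hBn : (Ex fun p : Fin L × Fin L =>
      (if p.2 ≤ p.1 then (if ((p.1 : Fin L) : ℕ) = 0 then (0 : ℝ) else 5 * C / ((p.1 : Fin L) : ℕ))
        else 0)) ≤ 10 * C / L := by
    rw [Ex, hcard, Fintype.sum_prod_type]
    have := sum_le hC0 (L := L)
    rw [div_le_div_iff₀ (by positivity) hLr]
    nlinarith
  have hCn : (Ex fun p : Fin L × Fin L =>
      (if p.1 ≤ p.2 then (if ((p.2 : Fin L) : ℕ) = 0 then (0 : ℝ) else 5 * C / ((p.2 : Fin L) : ℕ))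
        else 0)) ≤ 10 * C / L := by
    rw [Ex, hcard, Fintype.sum_prod_type, sum_comm]
    have := sum_le hC0 (L := L)
    rw [div_le_div_iff₀ (by positivity) hLr]
    nlinarith
  calc _ ≤ 1 / (L : ℝ) + 10 * C / L + 10 * C / L := add_le_add (add_le_add hA hBn) hCn
    _ = (1 + 20 * C) / L := by ring

end Vale.Agent.P325.K2
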